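import Vale.Agent.P088.R2.H437.Z0.Th
import Vale.Agent.P088.R2.H509.EP.Lit
import Vale.Agent.P088.R2.H31.EP.CstL

/-!
# P088, stage 3, zone 0: the row for the local data on the package
-/

open Set Filter
open scoped ContDiff Topology

noncomputable section

namespace Vale.Agent.P088.R2.H437.Z0

open Vale.Agent.P088.LR Vale.Agent.P088.HY
open Vale.Agent.P088.R2.H31.EP

variable {n : ℕ}

/-- The hypotheses of zone 0 near one point. -/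
def Loc0 (Λ₀ a c₁ β Λ δ ε s R : ℝ) (l : V n → ℝ) (g s₁ s₂ : MF n) (Φ S : ℝ → ℝ)
    (W : VV n → ℝ) (z : VV n) : Prop :=
  ∃ (O : Set (V n)) (Ω : Set (VV n)), z ∈ Ω ∧
    Hz Λ₀ a c₁ β Λ δ ε s R l g s₁ s₂ Φ S O Ω ∧ ∀ w ∈ Ω, W w = W0 l g Φ S w

/-- **The data of zone 0** (both passes). -/
def RowZ0 (n : ℕ) : Prop := ∃ (Λ₀ cβ cε cs : ℝ) (c₁ Λ : Cst → ℝ), 1 ≤ Λ₀ ∧ 0 < cβ ∧ 0 < cε ∧
  0 < cs ∧ cs ≤ 1 ∧ NB_c₀ c₁ ∧ (∀ q, 0 < c₁ q) ∧ NB_ηc Λ ∧ (∀ q, 1 ≤ Λ q) ∧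
  ∀ δ : Cst → ℝ, NB_M₀ δ → (∀ q, 0 < δ q) →
    EvC fun q => ∀ d : Pk n, PkOk q d → ∀ z ∈ tsupport (d.ch q .z0),
      Loc0 Λ₀ (q.aC / 4) (c₁ q) (cβ * q.c₀) (Λ q) (δ q) (cε * q.ε) (cs * q.σ / q.R) q.R d.l
        (gi d.s₁) d.s₁ d.s₂ d.Φ (fun ρ => prS q.e₁ (2 * ρ)) (d.W q) z

end Vale.Agent.P088.R2.H437.Z0
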