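import Vale.Agent.P088.R2.H437.Z0.ZoneA
import Vale.Agent.P088.R2.H794.Z0.Row
import Vale.Agent.P088.R2.H808.Z0.Wd
import Vale.Agent.P088.R2.H281.EP.Bas
import Vale.Agent.P088.R2.H455.E.Lett

/-!
# P088, stage 3: the zone theorem of the leaf `z0`
-/

open Set Filter MeasureTheory
open scoped ContDiff Topology Matrix

noncomputable section

namespace Vale.Agent.P088.R2.H437.Z0

open Vale.Agent.P088.LR Vale.Agent.P088.HY Vale.Agent.P088.R2.H31.EP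
open Vale.Agent.P088.R2.H455.E (Mz coz SmE ZoE RowZo)
open Vale.Agent.P088.R2.H165 (Tab.Nu Tab.M0 Tab.c0)
open Vale.Agent.P088.R2.H867.Z (sq1)
open Vale.Agent.P088.R2.H551.E (Zone)

variable {n : ℕ}

/-- The number `a`. -/
def aZ (q : Cst) : ℝ := if 0 < q.aC then q.aC / 4 else 1

theorem aZ_pos (q : Cst) : 0 < aZ q := by
  unfold aZ
  split_ifs with h
  · positivity
  · exact one_pos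

theorem aZ_nb : NB_c₀ aZ := fun _ => rfl

/-- The constant of the derivative bounds. -/
def Cw (n : ℕ) (Λ : ℝ) : ℝ := if h : 1 ≤ Λ then (H808.Z0.rowWD n Λ h).choose else 1

theorem Cw_spec (n : ℕ) {Λ : ℝ} (h : 1 ≤ Λ) : 1 ≤ Cw n Λ ∧
    ∀ (R : ℝ) (l : V n → ℝ) (g : MF n) (Φ S : ℝ → ℝ) (O : Set (V n)) (Ω : Set (VV n)),
      Dt Λ R l g Φ S O Ω → ∀ z ∈ Ω, WB (Cw n Λ) R l Φ (W0 l g Φ S) z := by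
  unfold Cw
  rw [dif_pos h]
  exact (H808.Z0.rowWD n Λ h).choose_spec

/-- The smallness of `c₀`. -/
theorem ev_c₀ (n : ℕ) {Λ₀ cβ : ℝ} (hΛ₀ : 1 ≤ Λ₀) (hcβ : 0 < cβ) {c₁ : Cst → ℝ} (nc : NB_c₀ c₁)
    (pc : ∀ q, 0 < c₁ q) : EvC fun q => cβ * q.c₀ ≤ bT n Λ₀ (aZ q) (c₁ q) ∧
      kX n Λ₀ (aZ q) * (cβ * q.c₀) ≤ 1 := by
  have h : EvC fun q => cβ * q.c₀ ≤ bT n Λ₀ (aZ q.b_c₀) (c₁ q.b_c₀) ∧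
      kX n Λ₀ (aZ q.b_c₀) * (cβ * q.c₀) ≤ 1 :=
    EvC.at_c₀ (fun q t => cβ * t ≤ bT n Λ₀ (aZ q) (c₁ q) ∧ kX n Λ₀ (aZ q) * (cβ * t) ≤ 1)
      fun q => by
        have b := bT_pos n hΛ₀ (aZ_pos q) (pc q)
        have k := kX_pos n hΛ₀ (aZ_pos q)
        filter_upwards [sml_pos, sml_le (a := bT n Λ₀ (aZ q) (c₁ q) / cβ) (by positivity),
          sml_le (a := 1 / (kX n Λ₀ (aZ q) * cβ)) (by positivity)] with t _ h1 h2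
        rw [le_div_iff₀ hcβ] at h1
        rw [le_div_iff₀ (by positivity)] at h2
        constructor <;> linarith
  refine h.mono fun q hq => ?_
  rw [nc q, aZ_nb q] at hq
  exact hq

/-- The bound of the small parameter. -/
def thZ (n : ℕ) (_ : Cst) : ℝ := min (1 / 200) (1 / (4 * (n : ℝ) ^ 2 + 1))

theorem thZ_sm (n : ℕ) : SmE (thZ n) := ⟨fun _ => rfl, fun _ => by unfold thZ; positivity⟩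

/-- The zone theorem for one package. -/
theorem zpt {q : Cst} {d : Pk n} (kz : Cst → Pk n → VV n → ℝ) (B : H455.E.Bas q d)
    (zl : H794.Z0.ZL n q d) {Λ₀ a c₁ β Λ C δ ε s c₂ η : ℝ}
    (loc : ∀ z ∈ tsupport (d.ch q .z0), Loc0 Λ₀ a c₁ β Λ δ ε s q.R d.l (gi d.s₁) d.s₁ d.s₂ d.Φ
      (fun ρ => prS q.e₁ (2 * ρ)) (d.W q) z)
    (wd : ∀ (R : ℝ) (l : V n → ℝ) (g : MF n) (Φ S : ℝ → ℝ) (O : Set (V n)) (Ω : Set (VV n)),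
      Dt Λ R l g Φ S O Ω → ∀ z ∈ Ω, WB C R l Φ (W0 l g Φ S) z)
    (hΛ₀ : 1 ≤ Λ₀) (hΛ : 1 ≤ Λ) (ha : 0 < a) (hc : 0 < c₁) (hC : 1 ≤ C) (hη : 0 < η)
    (hη1 : η ≤ 1 / 200) (hη2 : 2 * (2 * (n : ℝ) ^ 2) * η ≤ 1) (hc₂ : 0 < c₂)
    (hc₂' : c₂ ≤ c2T n Λ₀ a c₁) (hβ : β ≤ bT n Λ₀ a c₁) (hβ' : kX n Λ₀ a * β ≤ 1)
    (hδ : δ ≤ dC n Λ₀ a c₁ Λ C c₂ η) (hδ' : δ ≤ dS0 n Λ₀ a Λ C η) (hs : 0 ≤ s) :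
    Zone d.sx d.sy univ 1 0 0 (d.W q) (d.ch q .z0)
      ((Tab.M0 (H455.E.nu kz q d) (c0N n Λ₀ a Λ C c₂ / 3) s).sm fun z => d.ch q .z0 z ^ 2)
      (Tab.c0 (H455.E.nu kz q d) (500 * C1 n Λ₀ a Λ C c₂ ^ 2) s (sq1 (d.ch q .z0)) η) :=
  zone_abs (s₁ := d.s₁) (s₂ := d.s₂) B.s₁ B.s₂ B.y₁ B.y₂ B.e₁ B.e₂ B.W (B.ch .z0) zl.dt.oΩ
    zl.ts (fun w hw => congrArg Real.exp (zl.u w hw))
    (fun w hw => congrArg (deriv d.Φ) (zl.u w hw))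
    (fun w hw => congrArg (deriv (deriv d.Φ)) (zl.u w hw)) loc
    (fun O Ω => wd q.R d.l (gi d.s₁) d.Φ _ O Ω) hΛ₀ hΛ ha hc hC hη hη1 hη2 hc₂ hc₂' hβ hβ' hδ
    hδ' hs

/-! ## The letters -/

def Cf (n : ℕ) (Λ : Cst → ℝ) (q : Cst) : ℝ := Cw n (Λ q)

def c2f (n : ℕ) (Λ₀ : ℝ) (c₁ : Cst → ℝ) (q : Cst) : ℝ := c2T n Λ₀ (aZ q) (c₁ q)

def c0f (n : ℕ) (Λ₀ : ℝ) (c₁ Λ : Cst → ℝ) (q : Cst) : ℝ :=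
  c0N n Λ₀ (aZ q) (Λ q) (Cf n Λ q) (c2f n Λ₀ c₁ q) / 3

def C0f (n : ℕ) (Λ₀ : ℝ) (c₁ Λ : Cst → ℝ) (q : Cst) : ℝ :=
  500 * C1 n Λ₀ (aZ q) (Λ q) (Cf n Λ q) (c2f n Λ₀ c₁ q) ^ 2

def δf (n : ℕ) (Λ₀ : ℝ) (c₁ Λ e : Cst → ℝ) (q : Cst) : ℝ :=
  min (dC n Λ₀ (aZ q) (c₁ q) (Λ q) (Cf n Λ q) (c2f n Λ₀ c₁ q) (e q))
    (dS0 n Λ₀ (aZ q) (Λ q) (Cf n Λ q) (e q))

section nb

variable {Λ₀ : ℝ} {c₁ Λ e : Cst → ℝ}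

theorem c0f_nb (nc : NB_c₀ c₁) (nΛ : NB_ηc Λ) : NB_ηc (c0f n Λ₀ c₁ Λ) := fun q => by
  have e1 : c₁ q.b_ηc = c₁ q := (nc q.b_ηc).symm.trans (nc q)
  have e3 : aZ q.b_ηc = aZ q := rfl
  unfold c0f Cf c2f
  rw [nΛ q, e1, e3]

theorem C0f_nb (nc : NB_c₀ c₁) (nΛ : NB_ηc Λ) : NB_ηc (C0f n Λ₀ c₁ Λ) := fun q => by
  have e1 : c₁ q.b_ηc = c₁ q := (nc q.b_ηc).symm.trans (nc q)
  have e3 : aZ q.b_ηc = aZ q := rfl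
  unfold C0f Cf c2f
  rw [nΛ q, e1, e3]

theorem δf_nb (nc : NB_c₀ c₁) (nΛ : NB_ηc Λ) (ne : NB_c' e) : NB_M₀ (δf n Λ₀ c₁ Λ e) :=
  fun q => by
  have e1 : c₁ q.b_M₀ = c₁ q := (nc q.b_M₀).symm.trans (nc q)
  have e2 : Λ q.b_M₀ = Λ q := (nΛ q.b_M₀).symm.trans (nΛ q)
  have e4 : e q.b_M₀ = e q := (ne q.b_M₀).symm.trans (ne q)
  have e3 : aZ q.b_M₀ = aZ q := rfl
  unfold δf Cf c2f
  rw [e2, e1, e3, e4]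

theorem Cf_one (pΛ : ∀ q, 1 ≤ Λ q) (q : Cst) : 1 ≤ Cf n Λ q := (Cw_spec n (pΛ q)).1

theorem c2f_pos (hΛ₀ : 1 ≤ Λ₀) (pc : ∀ q, 0 < c₁ q) (q : Cst) : 0 < c2f n Λ₀ c₁ q :=
  c2T_pos n hΛ₀ (aZ_pos q) (pc q)

theorem C1f_pos (hΛ₀ : 1 ≤ Λ₀) (pc : ∀ q, 0 < c₁ q) (pΛ : ∀ q, 1 ≤ Λ q) (q : Cst) :
    0 < C1 n Λ₀ (aZ q) (Λ q) (Cf n Λ q) (c2f n Λ₀ c₁ q) := by
  have h1 := Cf_one (n := n) pΛ q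
  have h2 := c2f_pos (n := n) hΛ₀ pc q
  have h3 := (C1_ge (Λ₀ := Λ₀) n (aZ_pos q) (by linarith [pΛ q] : (0:ℝ) ≤ Λ q)
      (by linarith : 0 ≤ Cf n Λ q) h2.le).1
  have h4 := aZ_pos q
  have : 0 < 1 / aZ q := by positivity
  linarith

theorem c0f_pos (hΛ₀ : 1 ≤ Λ₀) (pc : ∀ q, 0 < c₁ q) (pΛ : ∀ q, 1 ≤ Λ q) (q : Cst) :
    0 < c0f n Λ₀ c₁ Λ q := by
  have h1 := C1f_pos (n := n) hΛ₀ pc pΛ q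
  have h2 := c2f_pos (n := n) hΛ₀ pc q
  have h3 := cQ_pos n Λ₀
  unfold c0f c0N
  positivity

theorem C0f_pos (hΛ₀ : 1 ≤ Λ₀) (pc : ∀ q, 0 < c₁ q) (pΛ : ∀ q, 1 ≤ Λ q) (q : Cst) :
    0 < C0f n Λ₀ c₁ Λ q := by
  have h1 := C1f_pos (n := n) hΛ₀ pc pΛ q
  unfold C0f
  positivity

theorem δf_pos (hΛ₀ : 1 ≤ Λ₀) (pc : ∀ q, 0 < c₁ q) (pΛ : ∀ q, 1 ≤ Λ q) (pe : ∀ q, 0 < e q)
    (q : Cst) : 0 < δf n Λ₀ c₁ Λ e q := by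
  have h1 := Cf_one (n := n) pΛ q
  have h2 := c2f_pos (n := n) hΛ₀ pc q
  exact lt_min (dC_pos n (aZ_pos q) (pΛ q) (by linarith) h2 (pe q))
    (dS0_pos n (by linarith) (aZ_pos q) (by linarith [pΛ q]) (by linarith) (pe q))

end nb

/-- One value of the constants. -/
theorem zq {q : Cst} {d : Pk n} (kz : Cst → Pk n → VV n → ℝ) (B : H455.E.Bas q d)
    (zl : H794.Z0.ZL n q d) {Λ₀ cβ cε cs : ℝ} {c₁ Λ e : Cst → ℝ}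
    (loc : ∀ z ∈ tsupport (d.ch q .z0), Loc0 Λ₀ (q.aC / 4) (c₁ q) (cβ * q.c₀) (Λ q)
      (δf n Λ₀ c₁ Λ e q) (cε * q.ε) (cs * q.σ / q.R) q.R d.l (gi d.s₁) d.s₁ d.s₂ d.Φ
      (fun ρ => prS q.e₁ (2 * ρ)) (d.W q) z)
    (hΛ₀ : 1 ≤ Λ₀) (pc : ∀ q, 0 < c₁ q) (pΛ : ∀ q, 1 ≤ Λ q) (pe : ∀ q, 0 < e q)
    (he : e q ≤ thZ n q) (aC0 : 0 < q.aC) (σ0 : 0 < q.σ) (R0 : 0 < q.R) (hcs : 0 < cs)
    (h4 : cβ * q.c₀ ≤ bT n Λ₀ (aZ q) (c₁ q) ∧ kX n Λ₀ (aZ q) * (cβ * q.c₀) ≤ 1) :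
    Zone d.sx d.sy univ 1 0 0 (d.W q) (d.ch q .z0)
      ((Tab.M0 (H455.E.nu kz q d) (c0f n Λ₀ c₁ Λ q) (cs * q.σ / q.R)).sm
        fun z => d.ch q .z0 z ^ 2)
      (Tab.c0 (H455.E.nu kz q d) (C0f n Λ₀ c₁ Λ q) (cs * q.σ / q.R) (sq1 (d.ch q .z0))
        (e q)) := by
  have ea : q.aC / 4 = aZ q := by unfold aZ; rw [if_pos aC0]
  rw [ea] at loc
  unfold thZ at he
  obtain ⟨t1, t2⟩ := le_min_iff.1 he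
  rw [le_div_iff₀ (by positivity)] at t2
  have he0 := pe q
  have t3 : 2 * (2 * (n : ℝ) ^ 2) * e q ≤ 1 := by linarith
  have δ1 : δf n Λ₀ c₁ Λ e q ≤ dC n Λ₀ (aZ q) (c₁ q) (Λ q) (Cf n Λ q) (c2f n Λ₀ c₁ q) (e q) :=
    min_le_left _ _
  have δ2 : δf n Λ₀ c₁ Λ e q ≤ dS0 n Λ₀ (aZ q) (Λ q) (Cf n Λ q) (e q) := min_le_right _ _
  exact zpt kz B zl loc (Cw_spec n (pΛ q)).2 hΛ₀ (pΛ q) (aZ_pos q) (pc q) (Cw_spec n (pΛ q)).1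
    he0 t1 t3 (c2f_pos hΛ₀ pc q) le_rfl h4.1 h4.2 δ1 δ2 (by positivity)

/-- **The zone theorem of the leaf `z0`.** -/
theorem zoZ0 (hn : 1 ≤ n) : ∃ (c0 C0 : Cst → ℝ) (cs : ℝ), (∀ q, 0 < c0 q) ∧ NB_ηc c0 ∧
    (∀ q, 0 < C0 q) ∧ NB_ηc C0 ∧ 0 < cs ∧ cs ≤ 1 ∧ ∀ L : H455.E.Lc n, (∀ q, L.c0 q = c0 q) →
      (∀ q, L.C0 q = C0 q) → (∀ q, L.cs q = cs) → ZoE L .z0 := by
  obtain ⟨Λ₀, cβ, cε, cs, c₁, Λ, hΛ₀, hcβ, hcε, hcs, hcs1, nc₁, pc₁, nΛ, pΛ, H⟩ :=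
    H794.Z0.rowZ0 hn
  refine ⟨c0f n Λ₀ c₁ Λ, C0f n Λ₀ c₁ Λ, cs, c0f_pos hΛ₀ pc₁ pΛ, c0f_nb nc₁ nΛ,
    C0f_pos hΛ₀ pc₁ pΛ, C0f_nb nc₁ nΛ, hcs, hcs1, fun L hL1 hL2 hL3 => ?_⟩
  refine ⟨thZ n, thZ_sm n, fun e he hth => ?_⟩
  have E1 := H (δf n Λ₀ c₁ Λ e) (δf_nb nc₁ nΛ he.1) (δf_pos hΛ₀ pc₁ pΛ he.2)
  have E2 := H794.Z0.evZ0 hn
  have E3 := H281.EP.rowBas n
  have E4 := ev_c₀ n hΛ₀ hcβ nc₁ pc₁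
  unfold RowZo ZoneThm
  refine ((E1.and E2).and (E3.and (E4.and EvC.pos))).mono ?_
  rintro q ⟨⟨h1, h2⟩, h3, h4, pos⟩ d ok
  have es : H455.E.sg L q = cs * q.σ / q.R := by
    unfold H455.E.sg
    rw [hL3 q, mul_div_assoc]
  have R1 : 1 ≤ q.R := pos.2.2.2.2.2.2.2
  have key := zq L.kz (h3 d ok) (h2.2 d ok) (h1 d ok) hΛ₀ pc₁ pΛ he.2 (hth q)
    pos.1.2.2.2.2.1 pos.2.1.2.1 (by linarith) hcs h4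
  show Zone d.sx d.sy univ 1 0 0 (d.W q) (d.ch q .z0)
    ((Mz L q d .z0).sm fun z => d.ch q .z0 z ^ 2) (coz L e q d .z0)
  have m1 : Mz L q d .z0 = Tab.M0 (H455.E.nu L.kz q d) (L.c0 q) (H455.E.sg L q) := rfl
  have m2 : coz L e q d .z0 =
    Tab.c0 (H455.E.nu L.kz q d) (L.C0 q) (H455.E.sg L q) (sq1 (d.ch q .z0)) (e q) := rfl
  rw [m1, m2, es, hL1 q, hL2 q]
  exact key

end Vale.Agent.P088.R2.H437.Z0
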