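import Vale.Agent.P088.R2.H437.Z0.Nu
import Vale.Agent.P088.R2.H437.Z0.Row
import Vale.Agent.P088.R2.H867.Z.Cz2
import Vale.Agent.P088.R2.H551.E.EstG

/-!
# P088, stage 3, zone 0: the zone theorem from the local data
-/

open Set Filter MeasureTheory
open scoped ContDiff Topology Matrix

noncomputable section

namespace Vale.Agent.P088.R2.H437.Z0

open Vale.Agent.P088.LR Vale.Agent.P088.HY Vale.Agent.P088.R2.H961.GW Vale.Agent.P088.R2.H644.Ch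
open Vale.Agent.P088.R2.H464.Cu (mid dif rq bf dg Hv up nv Nr sx sy)
open Vale.Agent.P088.R2.H747.SW (gA qf qq dq SmQ Ys)
open Vale.Agent.P088.R2.H808.Zq (Ns Nz xf zone0N)
open Vale.Agent.P088.R2.H165 (Tab.Nu Tab.M0 Tab.c0)
open Vale.Agent.P088.R2.H867.Z (sq1)
open Vale.Agent.P088.R2.H551.E (Zone)

variable {n : ℕ} {Λ₀ a c₁ β Λ δ ε s R C c₂ η : ℝ} {l : V n → ℝ} {g s₁ s₂ : MF n} {Φ S : ℝ → ℝ}
  {O : Set (V n)} {Ω Ω' : Set (VV n)} {z v : VV n} {W χ : VV n → ℝ} {ν : Tab.Nu (VV n)}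

theorem Dt.mono (h : Dt Λ R l g Φ S O Ω) (o : IsOpen Ω') (hs : Ω' ⊆ Ω) :
    Dt Λ R l g Φ S O Ω' where
  R1 := h.R1
  oO := h.oO
  oΩ := o
  pt z hz := h.pt z (hs hz)
  nq z hz := h.nq z (hs hz)
  sl := h.sl
  jl := h.jl
  sg := h.sg
  jg := h.jg
  sΦ := h.sΦ
  N0 z hz := h.N0 z (hs hz)
  K0 z hz := h.K0 z (hs hz)
  dΦ z hz := h.dΦ z (hs hz)
  sS := h.sS
  dS z hz := h.dS z (hs hz)

theorem Hz.mono (h : Hz Λ₀ a c₁ β Λ δ ε s R l g s₁ s₂ Φ S O Ω) (o : IsOpen Ω') (hs : Ω' ⊆ Ω) :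
    Hz Λ₀ a c₁ β Λ δ ε s R l g s₁ s₂ Φ S O Ω' where
  dt := h.dt.mono o hs
  ll z hz := h.ll z (hs hz)
  n₁ := h.n₁
  n₂ := h.n₂
  ng := h.ng
  j₁ := h.j₁
  j₂ := h.j₂
  ε0 := h.ε0
  ε1 := h.ε1
  εn := h.εn
  εs := h.εs
  s0 := h.s0
  s1 := h.s1
  Rs := h.Rs
  lc := h.lc
  lg := h.lg
  β0 := h.β0
  l0 := h.l0
  dq z hz := h.dq z (hs hz)
  S0 z hz := h.S0 z (hs hz)
  S1 z hz := h.S1 z (hs hz)
  S2 z hz := h.S2 z (hs hz)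
  S3 z hz := h.S3 z (hs hz)
  EN z hz := h.EN z (hs hz)
  EK z hz := h.EK z (hs hz)
  KN z hz := h.KN z (hs hz)
  KE z hz := h.KE z (hs hz)
  N1 z hz := h.N1 z (hs hz)
  NR z hz := h.NR z (hs hz)

/-- The points with local data. -/
def OmG (Λ₀ a c₁ β Λ δ ε s R : ℝ) (l : V n → ℝ) (g s₁ s₂ : MF n) (Φ S : ℝ → ℝ)
    (W : VV n → ℝ) (Ω₀ : Set (VV n)) : Set (VV n) :=
  {z | ∃ (O : Set (V n)) (Ω : Set (VV n)), z ∈ Ω ∧ Ω ⊆ Ω₀ ∧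
    Hz Λ₀ a c₁ β Λ δ ε s R l g s₁ s₂ Φ S O Ω ∧ ∀ w ∈ Ω, W w = W0 l g Φ S w}

theorem OmG_open (Ω₀ : Set (VV n)) : IsOpen (OmG Λ₀ a c₁ β Λ δ ε s R l g s₁ s₂ Φ S W Ω₀) := by
  rw [isOpen_iff_mem_nhds]
  rintro z ⟨O, Ω, hz, h0, h, hW⟩
  filter_upwards [h.dt.oΩ.mem_nhds hz] with y hy
  exact ⟨O, Ω, hy, h0, h, hW⟩

theorem Loc0.mem {Ω₀ : Set (VV n)} (h : Loc0 Λ₀ a c₁ β Λ δ ε s R l g s₁ s₂ Φ S W z)
    (o : IsOpen Ω₀) (hz : z ∈ Ω₀) : z ∈ OmG Λ₀ a c₁ β Λ δ ε s R l g s₁ s₂ Φ S W Ω₀ := by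
  obtain ⟨O, Ω, h1, h2, h3⟩ := h
  exact ⟨O, Ω ∩ Ω₀, ⟨h1, hz⟩, inter_subset_right, h2.mono (h2.dt.oΩ.inter o) inter_subset_left,
    fun w hw => h3 w hw.1⟩

/-- Smoothness from local data. -/
theorem sm_of {U : Set (VV n)} {f : VV n → ℝ}
    (h : ∀ z ∈ U, ∃ Ω : Set (VV n), IsOpen Ω ∧ z ∈ Ω ∧ ContDiffOn ℝ ∞ f Ω) : Sm U f := by
  intro z hz
  obtain ⟨Ω, o, h1, h2⟩ := h z hz
  exact ((h2 z h1).contDiffAt (o.mem_nhds h1)).contDiffWithinAt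

theorem sq1_sm (hχ : ContDiff ℝ ∞ χ) : Continuous (sq1 χ) := by
  have h1 : ContDiff ℝ ∞ (fderiv ℝ χ) := hχ.fderiv_right (m := ∞) le_rfl
  unfold sq1
  refine continuous_finsetSum _ fun i _ => ?_
  exact ((h1.clm_apply contDiff_const).continuous.pow 2).add
    ((h1.clm_apply contDiff_const).continuous.pow 2)

theorem sq1_zero (hz : z ∉ tsupport χ) : sq1 χ z = 0 := by
  have h : χ =ᶠ[𝓝 z] fun _ => 0 := by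
    filter_upwards [(isClosed_tsupport χ).isOpen_compl.mem_nhds hz] with w hw using
      image_eq_zero_of_notMem_tsupport hw
  have e : fderiv ℝ χ z = 0 := by rw [h.fderiv_eq]; simp
  have e1 : ∀ i, HY.dx i χ z = 0 := fun i => by
    show fderiv ℝ χ z _ = 0
    rw [e]; rfl
  have e2 : ∀ i, HY.dy i χ z = 0 := fun i => by
    show fderiv ℝ χ z _ = 0
    rw [e]; rfl
  unfold sq1
  simp [e1, e2]

/-- The number of the margin. -/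
def c0N (n : ℕ) (Λ₀ a Λ C c₂ : ℝ) : ℝ :=
  min (1 / 4) (c₂ * cQ n Λ₀ / (1500 * C1 n Λ₀ a Λ C c₂))

/-- **The zone theorem from the local data.** -/
theorem zone_abs (hs₁ : SmM s₁) (hs₂ : SmM s₂) (hy₁ : ∀ x, (s₁ x).IsSymm)
    (hy₂ : ∀ x, (s₂ x).IsSymm) (el₁ : H551.E.El s₁) (el₂ : H551.E.El s₂) (hW : ContDiff ℝ ∞ W)
    (hχ : ContDiff ℝ ∞ χ) {Ω₀ : Set (VV n)} (o₀ : IsOpen Ω₀) (ts : tsupport χ ⊆ Ω₀)
    (hE : ∀ w ∈ Ω₀, ν.En w = Real.exp (uf l w)) (hN : ∀ w ∈ Ω₀, ν.N w = deriv Φ (uf l w))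
    (hK : ∀ w ∈ Ω₀, ν.K w = deriv (deriv Φ) (uf l w))
    (loc : ∀ z ∈ tsupport χ, Loc0 Λ₀ a c₁ β Λ δ ε s R l g s₁ s₂ Φ S W z)
    (wd : ∀ (O : Set (V n)) (Ω : Set (VV n)), Dt Λ R l g Φ S O Ω → ∀ z ∈ Ω,
      WB C R l Φ (W0 l g Φ S) z)
    (hΛ₀ : 1 ≤ Λ₀) (hΛ : 1 ≤ Λ)
    (ha : 0 < a) (hc : 0 < c₁) (hC : 1 ≤ C) (hη : 0 < η) (hη1 : η ≤ 1 / 200)
    (hη2 : 2 * (2 * (n : ℝ) ^ 2) * η ≤ 1) (hc₂ : 0 < c₂)
    (hc₂' : c₂ ≤ c2T n Λ₀ a c₁) (hβ : β ≤ bT n Λ₀ a c₁) (hβ' : kX n Λ₀ a * β ≤ 1)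
    (hδ : δ ≤ dC n Λ₀ a c₁ Λ C c₂ η) (hδ' : δ ≤ dS0 n Λ₀ a Λ C η) (hs : 0 ≤ s) :
    Zone (sx s₁) (sy s₂) univ 1 0 0 W χ
      ((Tab.M0 ν (c0N n Λ₀ a Λ C c₂ / 3) s).sm fun z => χ z ^ 2)
      (Tab.c0 ν (500 * C1 n Λ₀ a Λ C c₂ ^ 2) s (sq1 χ) η) := by
  have d1 : δ ≤ 1 := by
    unfold dS0 at hδ'
    exact (le_min_iff.1 hδ').1
  obtain ⟨k1, k2, k3, k4, k5, k6⟩ := C1_ge (Λ₀ := Λ₀) n ha (by linarith : (0:ℝ) ≤ Λ)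
    (by linarith : 0 ≤ C) hc₂.le
  have a0 : 0 < 1 / a := by positivity
  have C1' : 1 ≤ C1 n Λ₀ a Λ C c₂ := by linarith
  have C0' : 0 < C1 n Λ₀ a Λ C c₂ := by linarith
  have q0 := cQ_pos n Λ₀
  have ox := H551.E.fx_ok hs₁ hy₁ (isOpen_univ (X := VV n))
  have oy := H551.E.fy_ok hs₂ hy₂ (isOpen_univ (X := VV n))
  have hU : OmG Λ₀ a c₁ β Λ δ ε s R l g s₁ s₂ Φ S W Ω₀ ⊆ Ω₀ := by
    rintro z ⟨O, Ω, hz, h0, -, -⟩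
    exact h0 hz
  have D1 : ∀ i (f : VV n → ℝ) z, (sx s₁).D i f z = HY.dx i f z := fun i f z =>
    H551.E.fx_D i f z
  have D2 : ∀ i (f : VV n → ℝ) z, (sy s₂).D i f z = HY.dy i f z := fun i f z =>
    H551.E.fy_D i f z
  refine zone0N (Ω := OmG Λ₀ a c₁ β Λ δ ε s R l g s₁ s₂ Φ S W Ω₀) (S := tsupport χ)
    (m := mZ c₂ s l Φ) (c := fun _ _ => 0) (c' := fun _ _ => 0) (q := Q1 c₂ s l s₁ Φ)
    (q' := Q2 c₂ s l s₂ Φ) (K := 2 * n ^ 2) (κ₀ := 1 / 2) (cq := c₂ * cQ n Λ₀)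
    ox oy contDiffOn_const contDiffOn_const hW.contDiffOn hχ.contDiffOn
    (OmG_open Ω₀) (subset_univ _) (isClosed_tsupport χ) ?_ (fun z _ hz => image_eq_zero_of_notMem_tsupport hz)
    (fun _ => contDiffOn_const) (fun _ => contDiffOn_const) ?_ ?_ ?_ ?_ ?_ (by norm_num) hη hη1
    (by linarith) (by positivity) hη2 ?_ ?_ ?_ ?_ ?_ le_rfl C1' hs ?_ ?_ ?_ ?_ ?_ ?_ ?_ ?_ ?_
    (sq1_sm hχ).continuousOn (fun z _ hz => sq1_zero hz) ?_ ?_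
  · rintro z ⟨-, hz⟩
    exact (loc z hz).mem o₀ (ts hz)
  · intro i j
    refine sm_of fun z ⟨O, Ω, hz, h0, h, _⟩ => ⟨Ω, h.dt.oΩ, hz, ?_⟩
    exact (h.jq (P := ContinuousLinearMap.fst ℝ (V n) (V n)) hΛ₀ hΛ hc₂.le h.n₁ h.j₁
      (fun w => norm_fst_le w) (fun z hz => (h.dt.pt z hz).1) hz i j).sm
  · intro i j z
    have := (hy₁ z.1).apply i j
    unfold Q1
    rw [← this]; ring
  · intro i j
    refine sm_of fun z ⟨O, Ω, hz, h0, h, _⟩ => ⟨Ω, h.dt.oΩ, hz, ?_⟩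
    exact (h.jq (P := ContinuousLinearMap.snd ℝ (V n) (V n)) hΛ₀ hΛ hc₂.le h.n₂ h.j₂
      (fun w => norm_snd_le w) (fun z hz => (h.dt.pt z hz).2.1) hz i j).sm
  · intro i j z
    have := (hy₂ z.2).apply i j
    unfold Q2
    rw [← this]; ring
  · refine sm_of fun z ⟨O, Ω, hz, h0, h, _⟩ => ⟨Ω, h.dt.oΩ, hz, ?_⟩
    exact contDiffOn_const.mul (contDiffOn_const.mul ((dS h.dt.sΦ).comp_contDiffOn h.su))
  · rintro z ⟨O, Ω, hz, h0, h, hW⟩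
    exact (smq0 h hΛ₀ hΛ ha hc hC hη hc₂ hβ hβ' hδ' hz (wd O Ω h.dt z hz) hW).1
  · rintro z ⟨O, Ω, hz, h0, h, hW⟩
    exact (smq0 h hΛ₀ hΛ ha hc hC hη hc₂ hβ hβ' hδ' hz (wd O Ω h.dt z hz) hW).2
  · rintro z ⟨O, Ω, hz, h0, h, hW⟩ A B x y
    exact cert0 h hΛ₀ hΛ ha hc hC hη hc₂ hc₂' hβ hβ' hδ hz (wd O Ω h.dt z hz) hW A B x y
  · intro z _
    exact ⟨fun A => (el₁ z.1 A).2, fun A => by have := (el₁ z.1 A).1; show _ ≤ 2 * ∑ i, ∑ j, s₁ z.1 i j * A i * A j; linarith⟩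
  · intro z _
    exact ⟨fun A => (el₂ z.2 A).2, fun A => by have := (el₂ z.2 A).1; show _ ≤ 2 * ∑ i, ∑ j, s₂ z.2 i j * A i * A j; linarith⟩
  · unfold c0N; positivity
  · have : c0N n Λ₀ a Λ C c₂ ≤ c₂ * cQ n Λ₀ / (1500 * C1 n Λ₀ a Λ C c₂) := min_le_right _ _
    rw [le_div_iff₀ (by positivity)] at this
    linarith
  · exact min_le_left _ _
  · refine sm_of fun z ⟨O, Ω, hz, h0, h, _⟩ => ⟨Ω, h.dt.oΩ, hz, ?_⟩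
    exact (Real.contDiff_exp.comp_contDiffOn h.su).congr fun w hw => hE w (h0 hw)
  · refine sm_of fun z ⟨O, Ω, hz, h0, h, _⟩ => ⟨Ω, h.dt.oΩ, hz, ?_⟩
    exact ((dS h.dt.sΦ).comp_contDiffOn h.su).congr fun w hw => hN w (h0 hw)
  · have t : Sm (OmG Λ₀ a c₁ β Λ δ ε s R l g s₁ s₂ Φ S W Ω₀) ν.K := by
      refine sm_of fun z ⟨O, Ω, hz, h0, h, _⟩ => ⟨Ω, h.dt.oΩ, hz, ?_⟩
      exact ((dS (dS h.dt.sΦ)).comp_contDiffOn h.su).congr fun w hw => hK w (h0 hw)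
    exact t.continuousOn
  · rintro z ⟨O, Ω, hz, h0, h, hW⟩
    exact h.nz hΛ ha hc hC hc₂ d1 hz (hE z (h0 hz)) (hN z (h0 hz)) (hK z (h0 hz))
  · rintro z ⟨O, Ω, hz, h0, h, hW⟩
    exact (ns0 h hΛ₀ hΛ ha hc hC hc₂ d1 hβ hβ' hz (wd O Ω h.dt z hz) hW
      (fun w hw => hE w (h0 hw)) (fun w hw => hN w (h0 hw)) (hK z (h0 hz))).1
  · rintro z ⟨O, Ω, hz, h0, h, hW⟩
    exact (ns0 h hΛ₀ hΛ ha hc hC hc₂ d1 hβ hβ' hz (wd O Ω h.dt z hz) hW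
      (fun w hw => hE w (h0 hw)) (fun w hw => hN w (h0 hw)) (hK z (h0 hz))).2
  · intro z _
    unfold sq1
    simp only [D1]
    exact Finset.sum_le_sum fun i _ => by have := sq_nonneg (HY.dy i χ z); linarith
  · intro z _
    unfold sq1
    simp only [D2]
    exact Finset.sum_le_sum fun i _ => by have := sq_nonneg (HY.dx i χ z); linarith

end Vale.Agent.P088.R2.H437.Z0
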